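import Vale.Agent.P099.Defs
import Vale.Agent.P099.Final

/-!
# P099: the billiard flow of every irrational triangle is ergodic and weakly mixing
-/

namespace Vale.Agent.Results.P099.Main

open MeasureTheory Vale.Agent.P099

/-- Every irrational triangle: the billiard flow exists, preserves `μ`, is ergodic and weakly
mixing. -/
theorem result : ∀ T : Triangle, T.IsIrrational →
    (∃ Φ, T.IsBilliardFlow Φ) ∧ ∀ Φ, T.IsBilliardFlow Φ →
      (∀ t, AEMeasurable (Φ t) T.μ ∧ T.μ.map (Φ t) = T.μ) ∧
        IsErgodicFlow T.μ Φ ∧ IsWeaklyMixingFlow T.μ Φ :=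
  fun T hT => Vale.Agent.P099.irrational_triangle T hT

end Vale.Agent.Results.P099.Main
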